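import Vale.Agent.P171.GeomB
import Vale.Agent.P171.GeomD

/-!
# P171: elementary geometry (collects the files Geom*)
-/
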